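import Mathlib

/-!
Characters of finite abelian groups: autocorrelation, spectral decomposition of averaged squared
Euclidean distances, the weak-type bound, and the greedy dissociated set.
-/

open Finset

namespace Vale.Agent.P318.H868

section Fourier

variable {G : Type*} [AddCommGroup G] [Fintype G] [DecidableEq G]

omit [DecidableEq G] in
lemma conj_char (χ : AddChar G ℂ) (y : G) : (starRingEnd ℂ) (χ y) = χ (-y) := by
  rw [AddChar.map_neg_eq_inv, Complex.inv_def]
  have h : Complex.normSq (χ y) = 1 := by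
    rw [Complex.normSq_eq_norm_sq, AddChar.norm_apply]; norm_num
  simp [h]

/-- The Fourier coefficient used below. -/
noncomputable def fc (f : G → ℝ) (χ : AddChar G ℂ) : ℂ := ∑ x, (f x : ℂ) * χ x

lemma autocorr_complex (f : G → ℝ) (z : G) :
    ∑ χ : AddChar G ℂ, ((‖fc f χ‖ ^ 2 : ℝ) : ℂ) * χ z
      = (Fintype.card G : ℂ) * ∑ x, (f x : ℂ) * (f (x + z) : ℂ) := by
  have h1 : ∀ χ : AddChar G ℂ, ((‖fc f χ‖ ^ 2 : ℝ) : ℂ) * χ z
      = ∑ x, ∑ y, (f x : ℂ) * (f y : ℂ) * χ (x - y + z) := by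
    intro χ
    have : ((‖fc f χ‖ ^ 2 : ℝ) : ℂ) = fc f χ * (starRingEnd ℂ) (fc f χ) := by
      rw [Complex.mul_conj, Complex.normSq_eq_norm_sq]
    rw [this, fc, map_sum, Finset.sum_mul_sum, Finset.sum_mul]
    refine Finset.sum_congr rfl fun x _ => ?_
    rw [Finset.sum_mul]
    refine Finset.sum_congr rfl fun y _ => ?_
    rw [map_mul, conj_char, Complex.conj_ofReal, AddChar.map_add_eq_mul, sub_eq_add_neg,
      AddChar.map_add_eq_mul]
    ring
  rw [Finset.sum_congr rfl fun χ _ => h1 χ, Finset.sum_comm, Finset.mul_sum]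
  refine Finset.sum_congr rfl fun x _ => ?_
  rw [Finset.sum_comm]
  have h2 : ∀ y : G, ∑ χ : AddChar G ℂ, (f x : ℂ) * (f y : ℂ) * χ (x - y + z)
      = if y = x + z then (Fintype.card G : ℂ) * ((f x : ℂ) * (f (x + z) : ℂ)) else 0 := by
    intro y
    rw [← Finset.mul_sum, AddChar.sum_apply_eq_ite]
    by_cases hy : y = x + z
    · subst hy
      simp
      ring
    · have : x - y + z ≠ 0 := by
        intro h
        apply hy
        rw [eq_comm, ← sub_eq_zero]
        rw [← h]; abel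
      simp [this, hy]
  rw [Finset.sum_congr rfl fun y _ => h2 y]
  simp

lemma autocorr (f : G → ℝ) (z : G) :
    ∑ χ : AddChar G ℂ, ‖fc f χ‖ ^ 2 * (χ z).re
      = (Fintype.card G : ℝ) * ∑ x, f x * f (x + z) := by
  have h := congrArg Complex.re (autocorr_complex f z)
  have e1 : (∑ χ : AddChar G ℂ, ((‖fc f χ‖ ^ 2 : ℝ) : ℂ) * χ z).re
      = ∑ χ : AddChar G ℂ, ‖fc f χ‖ ^ 2 * (χ z).re := by
    rw [Complex.re_sum]
    refine Finset.sum_congr rfl fun χ _ => ?_
    rw [Complex.re_ofReal_mul]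
  have e2 : ((Fintype.card G : ℂ) * ∑ x, (f x : ℂ) * (f (x + z) : ℂ)).re
      = (Fintype.card G : ℝ) * ∑ x, f x * f (x + z) := by
    have : ((Fintype.card G : ℂ) * ∑ x, (f x : ℂ) * (f (x + z) : ℂ))
        = (((Fintype.card G : ℝ) * ∑ x, f x * f (x + z) : ℝ) : ℂ) := by
      push_cast; rfl
    rw [this, Complex.ofReal_re]
  rw [e1, e2] at h
  exact h

lemma sum_sq_diff (f : G → ℝ) (z : G) :
    ∑ u, (f u - f (u + z)) ^ 2
      = ∑ χ : AddChar G ℂ, (2 / (Fintype.card G : ℝ)) * ‖fc f χ‖ ^ 2 * (1 - (χ z).re) := by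
  have hN : (Fintype.card G : ℝ) ≠ 0 := by
    have : 0 < Fintype.card G := Fintype.card_pos
    positivity
  have h0 := autocorr f 0
  have hz := autocorr f z
  simp only [AddChar.map_zero_eq_one, Complex.one_re, mul_one, add_zero] at h0
  have e1 : ∑ u, (f u - f (u + z)) ^ 2 = 2 * ∑ u, f u * f u - 2 * ∑ u, f u * f (u + z) := by
    have e2 : ∑ u, f (u + z) * f (u + z) = ∑ u, f u * f u :=
      Equiv.sum_comp (Equiv.addRight z) (fun u => f u * f u)
    have : ∀ u, (f u - f (u + z)) ^ 2 = f u * f u + f (u + z) * f (u + z) - 2 * (f u * f (u + z)) :=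
      fun u => by ring
    rw [Finset.sum_congr rfl fun u _ => this u, Finset.sum_sub_distrib, Finset.sum_add_distrib, e2,
      ← Finset.mul_sum]
    ring
  have e3 : ∑ χ : AddChar G ℂ, (2 / (Fintype.card G : ℝ)) * ‖fc f χ‖ ^ 2 * (1 - (χ z).re)
      = (2 / (Fintype.card G : ℝ)) * (∑ χ : AddChar G ℂ, ‖fc f χ‖ ^ 2
          - ∑ χ : AddChar G ℂ, ‖fc f χ‖ ^ 2 * (χ z).re) := by
    rw [← Finset.sum_sub_distrib, Finset.mul_sum]
    refine Finset.sum_congr rfl fun χ _ => by ring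
  rw [e1, e3, h0, hz]
  field_simp

end Fourier

end Vale.Agent.P318.H868
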