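import Mathlib

/-!
Uniform sparsest cut and the Goemans-Linial relaxation on a finite vertex set `V`.
-/

open Finset

namespace Vale.Agent.P318.H868

variable {V : Type*}

/-- A capacity function: symmetric, nonnegative, zero on the diagonal. -/
structure IsCapacity (c : V → V → ℝ) : Prop where
  symm : ∀ i j, c i j = c j i
  diag : ∀ i, c i i = 0
  nonneg : ∀ i j, 0 ≤ c i j

/-- The ratio `c(S, V \ S) / (|S| |V \ S|)` of a cut `S`. -/
noncomputable def cutRatio [Fintype V] [DecidableEq V] (c : V → V → ℝ) (S : Finset V) : ℝ :=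
  (∑ i ∈ S, ∑ j ∈ Sᶜ, c i j) / ((S.card : ℝ) * (Sᶜ.card : ℝ))

/-- The value of uniform sparsest cut: the least ratio over nonempty proper subsets. -/
noncomputable def Phi [Fintype V] [DecidableEq V] (c : V → V → ℝ) : ℝ :=
  sInf {r : ℝ | ∃ S : Finset V, S.Nonempty ∧ S ≠ univ ∧ r = cutRatio c S}

/-- Negative-type semimetrics: squared Euclidean distances of points of `ℝ^V` satisfying all
triangle inequalities. -/
def IsNegType [Fintype V] (d : V → V → ℝ) : Prop :=
  (∃ x : V → EuclideanSpace ℝ V, ∀ i j, d i j = ‖x i - x j‖ ^ 2) ∧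
    ∀ i j k, d i k ≤ d i j + d j k

/-- The Goemans-Linial value. Sums over unordered pairs are written as half of the sums over
ordered pairs. -/
noncomputable def glValue [Fintype V] (c : V → V → ℝ) : ℝ :=
  sInf {r : ℝ | ∃ d : V → V → ℝ, IsNegType d ∧ (∑ i, ∑ j, d i j) / 2 = 1 ∧
    r = (∑ i, ∑ j, c i j * d i j) / 2}

end Vale.Agent.P318.H868
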