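import Mathlib
import Vale.Agent.P318.H868.Defs

/-!
Threshold cuts of a real function on a finite vertex set.
-/

open Finset MeasureTheory

namespace Vale.Agent.P318.H868

variable {V : Type*} [Fintype V]

/-- A layer-cake argument: if a weighted count of separated pairs is nonnegative at every
threshold, so is the weighted sum of positive parts of differences. -/
lemma layer_cake (h : V → V → ℝ) (f : V → ℝ)
    (H : ∀ t : ℝ, 0 ≤ ∑ x, ∑ y, h x y * (Set.Ico (f y) (f x)).indicator (1 : ℝ → ℝ) t) :
    0 ≤ ∑ x, ∑ y, h x y * max (f x - f y) 0 := by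
  have hint : ∀ x y : V, Integrable
      (fun t => h x y * (Set.Ico (f y) (f x)).indicator (1 : ℝ → ℝ) t) := by
    intro x y
    refine Integrable.const_mul ?_ _
    rw [integrable_indicator_iff measurableSet_Ico]
    exact integrableOn_const (by simp) (by simp)
  have e : ∫ t, ∑ x, ∑ y, h x y * (Set.Ico (f y) (f x)).indicator (1 : ℝ → ℝ) t
      = ∑ x, ∑ y, h x y * max (f x - f y) 0 := by
    rw [integral_finsetSum _ fun x _ => integrable_finsetSum _ fun y _ => hint x y]
    refine Finset.sum_congr rfl fun x _ => ?_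
    rw [integral_finsetSum _ fun y _ => hint x y]
    refine Finset.sum_congr rfl fun y _ => ?_
    rw [integral_const_mul, integral_indicator_one measurableSet_Ico, Real.volume_real_Ico]
  rw [← e]
  exact integral_nonneg H

variable [DecidableEq V]

lemma cutRatio_nonneg {c : V → V → ℝ} (hc : IsCapacity c) (S : Finset V) : 0 ≤ cutRatio c S := by
  unfold cutRatio
  refine div_nonneg (Finset.sum_nonneg fun i _ => Finset.sum_nonneg fun j _ => hc.nonneg i j)
    (by positivity)

lemma indicator_eq (f : V → ℝ) (h : V → V → ℝ) (t : ℝ) :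
    ∑ x, ∑ y, h x y * (Set.Ico (f y) (f x)).indicator (1 : ℝ → ℝ) t
      = ∑ x ∈ univ.filter (fun x => t < f x), ∑ y ∈ (univ.filter (fun x => t < f x))ᶜ, h x y := by
  rw [Finset.sum_filter]
  refine Finset.sum_congr rfl fun x _ => ?_
  by_cases hx : t < f x
  · rw [if_pos hx, ← Finset.sum_filter_add_sum_filter_not univ (fun y => t < f y)]
    have e1 : ∑ y ∈ univ.filter (fun y => t < f y),
        h x y * (Set.Ico (f y) (f x)).indicator (1 : ℝ → ℝ) t = 0 := by
      refine Finset.sum_eq_zero fun y hy => ?_
      rw [Finset.mem_filter] at hy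
      rw [Set.indicator_of_notMem, mul_zero]
      intro hmem
      exact absurd hmem.1 (not_le.2 hy.2)
    rw [e1, zero_add]
    have e2 : (univ.filter (fun x => t < f x))ᶜ = univ.filter (fun y => ¬ t < f y) := by
      rw [Finset.compl_filter]
    rw [e2]
    refine Finset.sum_congr rfl fun y hy => ?_
    rw [Finset.mem_filter] at hy
    rw [Set.indicator_of_mem (show t ∈ Set.Ico (f y) (f x) from ⟨not_lt.1 hy.2, hx⟩)]
    simp
  · rw [if_neg hx]
    refine Finset.sum_eq_zero fun y _ => ?_
    rw [Set.indicator_of_notMem, mul_zero]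
    intro hmem
    exact hx hmem.2

/-- Some threshold cut of `f` has ratio at most the ratio of `f`. -/
lemma exists_threshold_cut {c : V → V → ℝ} (hc : IsCapacity c) (f : V → ℝ)
    (hf : ∃ x y, f x ≠ f y) :
    ∃ t : ℝ, (univ.filter (fun x => t < f x)).Nonempty ∧ univ.filter (fun x => t < f x) ≠ univ ∧
      cutRatio c (univ.filter (fun x => t < f x)) * ∑ x, ∑ y, |f x - f y|
        ≤ ∑ x, ∑ y, c x y * |f x - f y| := by
  classical
  let 𝒮 : Finset (Finset V) := univ.filter (fun S => ∃ t : ℝ, S = univ.filter (fun x => t < f x) ∧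
    S.Nonempty ∧ S ≠ univ)
  have hne : 𝒮.Nonempty := by
    obtain ⟨x, y, hxy⟩ := hf
    wlog hlt : f y < f x generalizing x y with H
    · exact H y x hxy.symm (lt_of_le_of_ne (not_lt.1 hlt) hxy)
    refine ⟨univ.filter (fun x => f y < f x), ?_⟩
    rw [Finset.mem_filter]
    refine ⟨Finset.mem_univ _, f y, rfl, ⟨x, by simp [hlt]⟩, ?_⟩
    intro h
    have := Finset.mem_univ y
    rw [← h] at this
    simp at this
  obtain ⟨S, hS, hmin⟩ := Finset.exists_min_image 𝒮 (cutRatio c) hne
  rw [Finset.mem_filter] at hS
  obtain ⟨-, t, rfl, hSne, hSu⟩ := hS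
  refine ⟨t, hSne, hSu, ?_⟩
  set r := cutRatio c (univ.filter (fun x => t < f x)) with hr
  have key := layer_cake (fun x y => c x y - r) f (by
    intro u
    rw [indicator_eq]
    simp only [Finset.sum_sub_distrib, Finset.sum_const, nsmul_eq_mul]
    set S := univ.filter (fun x => u < f x) with hSdef
    by_cases hS1 : S.Nonempty
    · by_cases hS2 : S = univ
      · simp [hS2]
      · have hmem : S ∈ 𝒮 := by
          rw [Finset.mem_filter]
          exact ⟨Finset.mem_univ _, u, rfl, hS1, hS2⟩
        have hle := hmin S hmem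
        have hp1 : (0 : ℝ) < S.card := by exact_mod_cast hS1.card_pos
        have hp2 : (0 : ℝ) < Sᶜ.card := by
          have : (Sᶜ).Nonempty := by
            rw [Finset.nonempty_iff_ne_empty]
            intro h
            exact hS2 (by simpa using h)
          exact_mod_cast this.card_pos
        have : r ≤ (∑ i ∈ S, ∑ j ∈ Sᶜ, c i j) / ((S.card : ℝ) * (Sᶜ.card : ℝ)) := hle
        rw [le_div_iff₀ (by positivity)] at this
        linarith
    · rw [Finset.not_nonempty_iff_eq_empty] at hS1
      simp [hS1])
  have hsym1 : ∑ x, ∑ y, c x y * |f x - f y| = 2 * ∑ x, ∑ y, c x y * max (f x - f y) 0 := by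
    have h1 : ∀ x y, c x y * |f x - f y| = c x y * max (f x - f y) 0 + c y x * max (f y - f x) 0 := by
      intro x y
      rw [hc.symm y x, ← mul_add]
      congr 1
      rcases le_total (f x) (f y) with h | h
      · rw [abs_of_nonpos (by linarith), max_eq_right (by linarith), max_eq_left (by linarith)]; ring
      · rw [abs_of_nonneg (by linarith), max_eq_left (by linarith), max_eq_right (by linarith)]; ring
    simp_rw [h1, Finset.sum_add_distrib]
    rw [Finset.sum_comm (f := fun x y => c y x * max (f y - f x) 0)]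
    ring
  have hsym2 : ∑ x, ∑ y, |f x - f y| = 2 * ∑ x, ∑ y, max (f x - f y) 0 := by
    have h1 : ∀ x y, |f x - f y| = max (f x - f y) 0 + max (f y - f x) 0 := by
      intro x y
      rcases le_total (f x) (f y) with h | h
      · rw [abs_of_nonpos (by linarith), max_eq_right (by linarith), max_eq_left (by linarith)]; ring
      · rw [abs_of_nonneg (by linarith), max_eq_left (by linarith), max_eq_right (by linarith)]; ring
    simp_rw [h1, Finset.sum_add_distrib]
    rw [Finset.sum_comm (f := fun x y => max (f y - f x) 0)]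
    ring
  have key2 : ∑ x, ∑ y, (c x y - r) * max (f x - f y) 0
      = ∑ x, ∑ y, c x y * max (f x - f y) 0 - r * ∑ x, ∑ y, max (f x - f y) 0 := by
    simp_rw [sub_mul, Finset.sum_sub_distrib, Finset.mul_sum]
  rw [key2] at key
  rw [hsym1, hsym2]
  linarith

end Vale.Agent.P318.H868
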