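import Mathlib
import Vale.Agent.P318.H868.Defs
import Vale.Agent.P318.H868.Cut

/-!
From all feasible semimetrics to the Goemans-Linial value.
-/

open Finset

namespace Vale.Agent.P318.H868

variable {V : Type*} [Fintype V] [DecidableEq V]

/-- The relaxation is feasible on at least two points. -/
lemma exists_feasible [Nontrivial V] :
    ∃ d : V → V → ℝ, IsNegType d ∧ (∑ i, ∑ j, d i j) / 2 = 1 := by
  obtain ⟨o, o', _⟩ := exists_pair_ne V
  set N : ℝ := (Fintype.card V : ℝ) with hN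
  have hN1 : 1 < N := by
    rw [hN]; exact_mod_cast Fintype.one_lt_card
  set s : ℝ := Real.sqrt (1 / (N - 1)) with hs
  have hs2 : s ^ 2 = 1 / (N - 1) := by
    rw [hs, Real.sq_sqrt]
    have : 0 < N - 1 := by linarith
    positivity
  set u : V → ℝ := fun i => if i = o then s else 0 with hu
  refine ⟨fun i j => (u i - u j) ^ 2,
    ⟨⟨fun i => u i • EuclideanSpace.single o (1 : ℝ), ?_⟩, ?_⟩, ?_⟩
  · intro i j
    rw [← sub_smul, norm_smul, PiLp.norm_single]
    simp
  · intro i j k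
    simp only [hu]
    split_ifs <;> nlinarith [sq_nonneg s]
  · have e1 : ∀ i j, (u i - u j) ^ 2 = u i ^ 2 + u j ^ 2 - 2 * (u i * u j) := fun i j => by ring
    have e2 : ∑ i, u i = s := by simp [hu]
    have e3 : ∑ i, u i ^ 2 = s ^ 2 := by simp [hu]
    simp_rw [e1, Finset.sum_sub_distrib, Finset.sum_add_distrib, ← Finset.mul_sum, e2, ← Finset.sum_mul,
      e2, e3]
    simp only [Finset.sum_const, Finset.card_univ, nsmul_eq_mul]
    rw [← Finset.mul_sum, e3, ← hN]
    have : s * s = s ^ 2 := by ring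
    rw [this, hs2]
    have : N - 1 ≠ 0 := by linarith
    field_simp
    ring

/-- If every feasible semimetric is beaten, up to the factor `K`, by a cut of a given family, then
so is the Goemans-Linial value. -/
lemma finish [Nontrivial V] {c : V → V → ℝ} (hc : IsCapacity c) (P : Finset V → Prop) {K : ℝ} (hK : 0 < K)
    (h : ∀ d : V → V → ℝ, IsNegType d → (∑ i, ∑ j, d i j) / 2 = 1 →
      ∃ S, P S ∧ S.Nonempty ∧ S ≠ univ ∧ cutRatio c S ≤ K * ((∑ i, ∑ j, c i j * d i j) / 2)) :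
    (∃ S, P S ∧ S.Nonempty ∧ S ≠ univ ∧ cutRatio c S ≤ K * glValue c) ∧
      Phi c ≤ K * glValue c := by
  classical
  let 𝒮 : Finset (Finset V) := univ.filter fun S => P S ∧ S.Nonempty ∧ S ≠ univ
  obtain ⟨d₀, hd₀, hd₀1⟩ := exists_feasible (V := V)
  have hne : 𝒮.Nonempty := by
    obtain ⟨S, h1, h2, h3, _⟩ := h d₀ hd₀ hd₀1
    exact ⟨S, Finset.mem_filter.2 ⟨Finset.mem_univ _, h1, h2, h3⟩⟩
  obtain ⟨S, hS, hmin⟩ := Finset.exists_min_image 𝒮 (cutRatio c) hne
  rw [Finset.mem_filter] at hS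
  obtain ⟨-, hS1, hS2, hS3⟩ := hS
  have hle : cutRatio c S ≤ K * glValue c := by
    have : cutRatio c S / K ≤ glValue c := by
      unfold glValue
      refine le_csInf ⟨_, d₀, hd₀, hd₀1, rfl⟩ ?_
      rintro r ⟨d, hd, hd1, rfl⟩
      obtain ⟨S', h1, h2, h3, h4⟩ := h d hd hd1
      have h5 := hmin S' (Finset.mem_filter.2 ⟨Finset.mem_univ _, h1, h2, h3⟩)
      rw [div_le_iff₀ hK]
      linarith
    rw [div_le_iff₀ hK] at this
    linarith
  refine ⟨⟨S, hS1, hS2, hS3, hle⟩, ?_⟩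
  refine le_trans ?_ hle
  unfold Phi
  refine csInf_le ⟨0, ?_⟩ ⟨S, hS2, hS3, rfl⟩
  rintro r ⟨S', _, _, rfl⟩
  exact cutRatio_nonneg hc S'

end Vale.Agent.P318.H868
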