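import Mathlib
import Vale.Agent.P318.H868.Char

/-!
The weak-type bound, the dyadic summation, and the greedy dissociated set.
-/

open Finset

namespace Vale.Agent.P318.H868

/-- geometric sums of powers of a unimodular number -/
lemma geom_re (ζ : ℂ) (h1 : ‖ζ‖ = 1) (h : ζ ≠ 1) (M : ℕ) :
    (M : ℝ) - 2 / ‖1 - ζ‖ ≤ ∑ m ∈ range M, (1 - (ζ ^ (m + 1)).re) := by
  have hpos : 0 < ‖1 - ζ‖ := by
    rw [norm_pos_iff, sub_ne_zero]; exact fun e => h e.symm
  have e1 : ∑ m ∈ range M, (1 - (ζ ^ (m + 1)).re) = (M : ℝ) - (∑ m ∈ range M, ζ ^ (m + 1)).re := by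
    rw [Finset.sum_sub_distrib, Complex.re_sum]; simp
  have e2 : ∑ m ∈ range M, ζ ^ (m + 1) = ζ * ((ζ ^ M - 1) / (ζ - 1)) := by
    rw [← geom_sum_eq h, Finset.mul_sum]
    exact Finset.sum_congr rfl fun m _ => by ring
  have e3 : ‖∑ m ∈ range M, ζ ^ (m + 1)‖ ≤ 2 / ‖1 - ζ‖ := by
    rw [e2, norm_mul, h1, one_mul, norm_div, norm_sub_rev ζ 1]
    gcongr
    calc ‖ζ ^ M - 1‖ ≤ ‖ζ ^ M‖ + ‖(1 : ℂ)‖ := norm_sub_le _ _
      _ = 2 := by rw [norm_pow, h1]; norm_num
  have e4 := Complex.re_le_norm (∑ m ∈ range M, ζ ^ (m + 1))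
  rw [e1]; linarith

section Weak

variable {G : Type*} [AddCommGroup G] [Fintype G]

/-- chord length of a character at a point -/
noncomputable def chord (χ : AddChar G ℂ) (z : G) : ℝ := ‖1 - χ z‖

omit [Fintype G] in
lemma chord_nonneg (χ : AddChar G ℂ) (z : G) : 0 ≤ chord χ z := norm_nonneg _

omit [Fintype G] in
lemma chord_zero (χ : AddChar G ℂ) : chord χ 0 = 0 := by simp [chord]

lemma chord_le_two (χ : AddChar G ℂ) (z : G) : chord χ z ≤ 2 := by
  unfold chord
  calc ‖1 - χ z‖ ≤ ‖(1 : ℂ)‖ + ‖χ z‖ := norm_sub_le _ _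
    _ = 2 := by rw [AddChar.norm_apply]; norm_num

lemma chord_add (χ : AddChar G ℂ) (x y : G) : chord χ (x + y) ≤ chord χ x + chord χ y := by
  unfold chord
  rw [AddChar.map_add_eq_mul]
  have : 1 - χ x * χ y = (1 - χ x) + χ x * (1 - χ y) := by ring
  rw [this]
  calc ‖(1 - χ x) + χ x * (1 - χ y)‖ ≤ ‖1 - χ x‖ + ‖χ x * (1 - χ y)‖ := norm_add_le _ _
    _ = ‖1 - χ x‖ + ‖1 - χ y‖ := by rw [norm_mul, AddChar.norm_apply, one_mul]

lemma chord_neg (χ : AddChar G ℂ) (x : G) : chord χ (-x) = chord χ x := by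
  unfold chord
  have h : χ x * χ (-x) = 1 := by
    rw [← AddChar.map_add_eq_mul]; simp
  have : 1 - χ x = -(χ x * (1 - χ (-x))) := by
    linear_combination -h
  rw [this, norm_neg, norm_mul, AddChar.norm_apply, one_mul]

lemma chord_sum (χ : AddChar G ℂ) (B : Finset G) :
    chord χ (∑ x ∈ B, x) ≤ ∑ x ∈ B, chord χ x := by
  classical
  induction B using Finset.induction_on with
  | empty => simp [chord_zero]
  | insert a s ha ih =>
    rw [Finset.sum_insert ha, Finset.sum_insert ha]
    exact (chord_add _ _ _).trans (by linarith)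

lemma chord_comb (χ : AddChar G ℂ) (B C : Finset G) :
    chord χ (∑ x ∈ B, x - ∑ x ∈ C, x) ≤ ∑ x ∈ B, chord χ x + ∑ x ∈ C, chord χ x := by
  rw [sub_eq_add_neg]
  refine (chord_add _ _ _).trans ?_
  rw [chord_neg]
  exact add_le_add (chord_sum _ _) (chord_sum _ _)

lemma one_sub_re_eq (χ : AddChar G ℂ) (z : G) : 1 - (χ z).re = chord χ z ^ 2 / 2 := by
  unfold chord
  rw [← Complex.normSq_eq_norm_sq, Complex.normSq_apply]
  have h : (χ z).re * (χ z).re + (χ z).im * (χ z).im = 1 := by
    rw [← Complex.normSq_apply, Complex.normSq_eq_norm_sq, AddChar.norm_apply]; norm_num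
  simp only [Complex.sub_re, Complex.one_re, Complex.sub_im, Complex.one_im]
  nlinarith

lemma one_sub_re_nonneg (χ : AddChar G ℂ) (z : G) : 0 ≤ 1 - (χ z).re := by
  rw [one_sub_re_eq]; positivity

/-- The negative definite function attached to weights `a` on a set `T` of characters. -/
noncomputable def nd (T : Finset (AddChar G ℂ)) (a : AddChar G ℂ → ℝ) (z : G) : ℝ :=
  ∑ χ ∈ T, a χ * (1 - (χ z).re)

lemma nd_nonneg {T : Finset (AddChar G ℂ)} {a : AddChar G ℂ → ℝ} (ha : ∀ χ, 0 ≤ a χ) (z : G) :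
    0 ≤ nd T a z :=
  Finset.sum_nonneg fun χ _ => mul_nonneg (ha χ) (one_sub_re_nonneg χ z)

/-- The weak-type bound: `s · a{χ : |1 - χ(z)| ≥ s} ≤ 8 ψ(z)`. -/
lemma weak_type {T : Finset (AddChar G ℂ)} {a : AddChar G ℂ → ℝ} (ha : ∀ χ, 0 ≤ a χ)
    (hmul : ∀ (z : G) (m : ℕ), nd T a (m • z) ≤ m * nd T a z) (z : G) (s : ℝ) (hs : 0 ≤ s) :
    s * ∑ χ ∈ T with s ≤ chord χ z, a χ ≤ 8 * nd T a z := by
  have hnd : 0 ≤ nd T a z := nd_nonneg ha z
  rcases hs.eq_or_lt with rfl | hs
  · rw [zero_mul]; positivity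
  by_cases hs2 : 2 < s
  · have : ({χ ∈ T | s ≤ chord χ z} : Finset (AddChar G ℂ)) = ∅ := by
      apply Finset.filter_eq_empty_iff.2
      intro χ _ h
      exact absurd (h.trans (chord_le_two χ z)) (not_le.2 hs2)
    rw [this]; simp; exact hnd
  push Not at hs2
  obtain ⟨M, hM1, hM2⟩ : ∃ M : ℕ, 4 / s ≤ M ∧ (M : ℝ) < 4 / s + 1 :=
    ⟨⌈4 / s⌉₊, Nat.le_ceil _, Nat.ceil_lt_add_one (by positivity)⟩
  have hMpos : (0 : ℝ) < M := lt_of_lt_of_le (by positivity) hM1
  -- upper bound
  have hup : ∑ m ∈ range M, nd T a ((m + 1) • z) ≤ (M * (M + 1) / 2 : ℝ) * nd T a z := by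
    calc ∑ m ∈ range M, nd T a ((m + 1) • z)
        ≤ ∑ m ∈ range M, ((m + 1 : ℕ) : ℝ) * nd T a z :=
          Finset.sum_le_sum fun m _ => hmul z (m + 1)
      _ = (∑ m ∈ range M, ((m + 1 : ℕ) : ℝ)) * nd T a z := by rw [Finset.sum_mul]
      _ = (M * (M + 1) / 2 : ℝ) * nd T a z := by
          congr 1
          clear hM1 hM2 hMpos
          induction M with
          | zero => simp
          | succ n ih => rw [Finset.sum_range_succ, ih]; push_cast; ring
  -- lower bound
  have hlow : (M / 2 : ℝ) * ∑ χ ∈ T with s ≤ chord χ z, a χ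
      ≤ ∑ m ∈ range M, nd T a ((m + 1) • z) := by
    have e : ∑ m ∈ range M, nd T a ((m + 1) • z)
        = ∑ χ ∈ T, a χ * ∑ m ∈ range M, (1 - ((χ z) ^ (m + 1)).re) := by
      unfold nd
      rw [Finset.sum_comm]
      refine Finset.sum_congr rfl fun χ _ => ?_
      rw [Finset.mul_sum]
      refine Finset.sum_congr rfl fun m _ => ?_
      rw [AddChar.map_nsmul_eq_pow]
    rw [e, Finset.mul_sum]
    have hnn : ∀ χ ∈ T, 0 ≤ a χ * ∑ m ∈ range M, (1 - ((χ z) ^ (m + 1)).re) := by
      intro χ _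
      refine mul_nonneg (ha χ) (Finset.sum_nonneg fun m _ => ?_)
      rw [← AddChar.map_nsmul_eq_pow]
      exact one_sub_re_nonneg χ _
    refine le_trans ?_ (Finset.sum_le_sum_of_subset_of_nonneg
      (Finset.filter_subset (fun χ => s ≤ chord χ z) T) (fun χ hχ _ => hnn χ hχ))
    refine Finset.sum_le_sum fun χ hχ => ?_
    rw [Finset.mem_filter] at hχ
    have hne : χ z ≠ 1 := by
      intro h
      have : chord χ z = 0 := by simp [chord, h]
      linarith [hχ.2]
    have hg := geom_re (χ z) (AddChar.norm_apply χ z) hne M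
    have hch : 2 / ‖1 - χ z‖ ≤ M / 2 := by
      have h1 : 2 / ‖1 - χ z‖ ≤ 2 / s := by
        have : s ≤ ‖1 - χ z‖ := hχ.2
        gcongr
      have h2 : 4 / s = 2 * (2 / s) := by ring
      linarith
    rw [mul_comm]
    refine mul_le_mul_of_nonneg_left ?_ (ha χ)
    linarith
  -- combine
  have h3 : (M / 2 : ℝ) * ∑ χ ∈ T with s ≤ chord χ z, a χ ≤ (M / 2 : ℝ) * ((M + 1) * nd T a z) := by
    calc (M / 2 : ℝ) * ∑ χ ∈ T with s ≤ chord χ z, a χ
        ≤ (M * (M + 1) / 2 : ℝ) * nd T a z := hlow.trans hup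
      _ = (M / 2 : ℝ) * ((M + 1) * nd T a z) := by ring
  have h4 : ∑ χ ∈ T with s ≤ chord χ z, a χ ≤ (M + 1) * nd T a z :=
    le_of_mul_le_mul_left h3 (by positivity)
  calc s * ∑ χ ∈ T with s ≤ chord χ z, a χ ≤ s * ((M + 1) * nd T a z) := by gcongr
    _ = (s * (M + 1)) * nd T a z := by ring
    _ ≤ 8 * nd T a z := by
        gcongr
        have : s * M < s * (4 / s + 1) := by gcongr
        have h5 : s * (4 / s + 1) = 4 + s := by field_simp
        nlinarith

/-- Dyadic majorant. -/
lemma dyadic_pointwise (s r : ℝ) (hs : 0 ≤ s) (J : ℕ) (hr : r ≤ 2 ^ J * s) :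
    r ≤ s + ∑ j ∈ range J, (if 2 ^ j * s ≤ r then 2 ^ j * s else 0) := by
  induction J with
  | zero => simpa using hr
  | succ J ih =>
    by_cases h : r ≤ 2 ^ J * s
    · refine (ih h).trans ?_
      rw [Finset.sum_range_succ]
      have : (0 : ℝ) ≤ if 2 ^ J * s ≤ r then 2 ^ J * s else 0 := by
        split_ifs <;> positivity
      linarith
    · push Not at h
      have e : ∀ j ∈ range (J + 1), (if 2 ^ j * s ≤ r then 2 ^ j * s else 0) = 2 ^ j * s := by
        intro j hj
        rw [if_pos]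
        have : (2 : ℝ) ^ j ≤ 2 ^ J := by
          apply pow_le_pow_right₀ (by norm_num)
          have := Finset.mem_range.1 hj
          omega
        nlinarith
      rw [Finset.sum_congr rfl e, ← Finset.sum_mul]
      have g : ∑ j ∈ range (J + 1), (2 : ℝ) ^ j = 2 ^ (J + 1) - 1 := by
        rw [geom_sum_eq (by norm_num)]; norm_num
      rw [g]; linarith

/-- Summed version: if on `E ⊆ T` the chords at `z` are at most `2^J s`, then
`∑_{χ ∈ E} a χ |1 - χ z| ≤ s · a{χ ∈ E, chord > 0} + 8 J ψ(z)`. -/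
lemma dyadic_sum {T E : Finset (AddChar G ℂ)} (hE : E ⊆ T) {a : AddChar G ℂ → ℝ}
    (ha : ∀ χ, 0 ≤ a χ)
    (hmul : ∀ (z : G) (m : ℕ), nd T a (m • z) ≤ m * nd T a z) (z : G) (s : ℝ) (hs : 0 ≤ s)
    (J : ℕ) (hcap : ∀ χ ∈ E, chord χ z ≤ 2 ^ J * s) :
    ∑ χ ∈ E, a χ * chord χ z
      ≤ s * ∑ χ ∈ E with 0 < chord χ z, a χ + 8 * J * nd T a z := by
  have h1 : ∀ χ ∈ E, a χ * chord χ z ≤ (if 0 < chord χ z then a χ * s else 0)
      + ∑ j ∈ range J, (if 2 ^ j * s ≤ chord χ z then a χ * (2 ^ j * s) else 0) := by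
    intro χ hχ
    by_cases h0 : 0 < chord χ z
    · have h := dyadic_pointwise s (chord χ z) hs J (hcap χ hχ)
      have h' := mul_le_mul_of_nonneg_left h (ha χ)
      rw [mul_add, Finset.mul_sum] at h'
      rw [if_pos h0]
      refine h'.trans (le_of_eq ?_)
      congr 1
      refine Finset.sum_congr rfl fun j _ => ?_
      rw [mul_ite, mul_zero]
    · have h0' : chord χ z = 0 := le_antisymm (not_lt.1 h0) (chord_nonneg χ z)
      rw [h0', mul_zero]
      refine add_nonneg (by simp) (Finset.sum_nonneg fun j _ => ?_)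
      split_ifs
      · exact mul_nonneg (ha χ) (by positivity)
      · exact le_refl _
  refine (Finset.sum_le_sum h1).trans ?_
  rw [Finset.sum_add_distrib]
  have e1 : ∑ χ ∈ E, (if 0 < chord χ z then a χ * s else 0)
      = s * ∑ χ ∈ E with 0 < chord χ z, a χ := by
    rw [← Finset.sum_filter, Finset.mul_sum]
    exact Finset.sum_congr rfl fun χ _ => mul_comm _ _
  have e2 : ∑ χ ∈ E, ∑ j ∈ range J, (if 2 ^ j * s ≤ chord χ z then a χ * (2 ^ j * s) else 0)
      ≤ 8 * J * nd T a z := by
    rw [Finset.sum_comm]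
    have : ∀ j ∈ range J, ∑ χ ∈ E, (if 2 ^ j * s ≤ chord χ z then a χ * (2 ^ j * s) else 0)
        ≤ 8 * nd T a z := by
      intro j _
      have hw := weak_type ha hmul z (2 ^ j * s) (by positivity)
      refine le_trans ?_ hw
      rw [← Finset.sum_filter, Finset.mul_sum]
      refine le_trans (le_of_eq (Finset.sum_congr rfl fun χ _ => mul_comm _ _)) ?_
      refine Finset.sum_le_sum_of_subset_of_nonneg (Finset.filter_subset_filter _ hE) ?_
      intro χ _ _
      exact mul_nonneg (by positivity) (ha χ)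
    refine (Finset.sum_le_sum this).trans (le_of_eq ?_)
    simp; ring
  rw [e1]; linarith

end Weak

/-- Greedy dissociated set: for any real function `f` on a finite abelian group there is a set `X`
of at most `log₂ |G|` elements such that every `z` is a sum of distinct elements of `X` minus a sum
of other distinct elements of `X`, all of them with `f`-value at most `f z`. -/
lemma exists_dissociated {G : Type*} [AddCommGroup G] [Fintype G] [DecidableEq G] (f : G → ℝ) :
    ∃ X : Finset G, X.card ≤ Nat.log 2 (Fintype.card G) ∧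
      ∀ z : G, ∃ B ⊆ X, ∃ C ⊆ X, Disjoint B C ∧ z = ∑ x ∈ B, x - ∑ x ∈ C, x ∧
        (∀ x ∈ B, f x ≤ f z) ∧ (∀ x ∈ C, f x ≤ f z) := by
  have key : ∀ S : Finset G, ∃ X ⊆ S,
      (∀ B ⊆ X, ∀ C ⊆ X, ∑ x ∈ B, x = ∑ x ∈ C, x → B = C) ∧
      ∀ z ∈ S, ∃ B ⊆ X, ∃ C ⊆ X, z = ∑ x ∈ B, x - ∑ x ∈ C, x ∧
        (∀ x ∈ B, f x ≤ f z) ∧ (∀ x ∈ C, f x ≤ f z) := by
    intro S
    induction S using Finset.induction_on_max_value f with
    | empty =>
      refine ⟨∅, subset_rfl, ?_, by simp⟩
      intro B hB C hC _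
      rw [Finset.subset_empty.1 hB, Finset.subset_empty.1 hC]
    | insert z S hz hmax ih =>
      obtain ⟨X, hXS, hX, hrep⟩ := ih
      by_cases hspan : ∃ B ⊆ X, ∃ C ⊆ X, z = ∑ x ∈ B, x - ∑ x ∈ C, x
      · refine ⟨X, hXS.trans (Finset.subset_insert _ _), hX, ?_⟩
        intro y hy
        rcases Finset.mem_insert.1 hy with rfl | hy
        · obtain ⟨B, hB, C, hC, e⟩ := hspan
          exact ⟨B, hB, C, hC, e, fun x hx => hmax x (hXS (hB hx)), fun x hx => hmax x (hXS (hC hx))⟩
        · exact hrep y hy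
      · have hzX : z ∉ X := fun h => hz (hXS h)
        refine ⟨insert z X, Finset.insert_subset_insert _ hXS, ?_, ?_⟩
        · -- dissociated
          have erase_sub : ∀ B ⊆ insert z X, B.erase z ⊆ X := by
            intro B hB x hx
            rcases Finset.mem_insert.1 (hB (Finset.mem_of_mem_erase hx)) with h | h
            · exact absurd h (Finset.ne_of_mem_erase hx)
            · exact h
          intro B hB C hC e
          by_cases hzB : z ∈ B <;> by_cases hzC : z ∈ C
          · have eB := Finset.add_sum_erase B (fun x => x) hzB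
            have eC := Finset.add_sum_erase C (fun x => x) hzC
            have : ∑ x ∈ B.erase z, x = ∑ x ∈ C.erase z, x := by
              have : z + ∑ x ∈ B.erase z, x = z + ∑ x ∈ C.erase z, x := by
                rw [eB, eC]; exact e
              exact add_left_cancel this
            have h := hX _ (erase_sub B hB) _ (erase_sub C hC) this
            rw [← Finset.insert_erase hzB, ← Finset.insert_erase hzC, h]
          · exfalso
            apply hspan
            refine ⟨C, ?_, B.erase z, erase_sub B hB, ?_⟩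
            · intro x hx
              rcases Finset.mem_insert.1 (hC hx) with h | h
              · exact absurd (h ▸ hx) hzC
              · exact h
            · have eB := Finset.add_sum_erase B (fun x => x) hzB
              rw [← e, ← eB]; simp
          · exfalso
            apply hspan
            refine ⟨B, ?_, C.erase z, erase_sub C hC, ?_⟩
            · intro x hx
              rcases Finset.mem_insert.1 (hB hx) with h | h
              · exact absurd (h ▸ hx) hzB
              · exact h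
            · have eC := Finset.add_sum_erase C (fun x => x) hzC
              rw [e, ← eC]; simp
          · have hB' : B ⊆ X := by
              intro x hx
              rcases Finset.mem_insert.1 (hB hx) with h | h
              · exact absurd (h ▸ hx) hzB
              · exact h
            have hC' : C ⊆ X := by
              intro x hx
              rcases Finset.mem_insert.1 (hC hx) with h | h
              · exact absurd (h ▸ hx) hzC
              · exact h
            exact hX B hB' C hC' e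
        · intro y hy
          rcases Finset.mem_insert.1 hy with rfl | hy
          · refine ⟨{y}, by simp, ∅, by simp, by simp, ?_, by simp⟩
            intro x hx
            rw [Finset.mem_singleton.1 hx]
          · obtain ⟨B, hB, C, hC, e, h1, h2⟩ := hrep y hy
            exact ⟨B, hB.trans (Finset.subset_insert _ _), C, hC.trans (Finset.subset_insert _ _),
              e, h1, h2⟩
  obtain ⟨X, _, hX, hrep⟩ := key Finset.univ
  refine ⟨X, ?_, ?_⟩
  · apply Nat.le_log_of_pow_le (by norm_num)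
    rw [← Finset.card_powerset, ← Finset.card_univ]
    refine Finset.card_le_card_of_injOn (fun B => ∑ x ∈ B, x) (fun _ _ => Finset.mem_univ _) ?_
    intro B hB C hC e
    exact hX B (Finset.mem_powerset.1 hB) C (Finset.mem_powerset.1 hC) e
  · intro z
    obtain ⟨B, hB, C, hC, e, h1, h2⟩ := hrep z (Finset.mem_univ z)
    refine ⟨B \ C, Finset.sdiff_subset.trans hB, C \ B, Finset.sdiff_subset.trans hC, ?_, ?_,
      fun x hx => h1 x (Finset.sdiff_subset hx), fun x hx => h2 x (Finset.sdiff_subset hx)⟩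
    · exact disjoint_sdiff_sdiff
    · rw [Finset.sum_sdiff_sub_sum_sdiff]; exact e

end Vale.Agent.P318.H868
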