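import Mathlib
import Vale.Agent.P318.H868.Defs
import Vale.Agent.P318.H868.Char
import Vale.Agent.P318.H868.Weak
import Vale.Agent.P318.H868.Cut

/-!
The Goemans-Linial relaxation on Cayley graphs of finite abelian groups.
-/

open Finset

namespace Vale.Agent.P318.H868

lemma sum_biUnion_le_sum {ι κ : Type*} [DecidableEq ι] [DecidableEq κ] (X : Finset ι)
    (t : ι → Finset κ) (a : κ → ℝ) (ha : ∀ χ, 0 ≤ a χ) :
    ∑ χ ∈ X.biUnion t, a χ ≤ ∑ x ∈ X, ∑ χ ∈ t x, a χ := by
  induction X using Finset.induction_on with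
  | empty => simp
  | insert x X hx ih =>
    rw [Finset.biUnion_insert, Finset.sum_insert hx]
    have h := Finset.sum_union_inter (s₁ := t x) (s₂ := X.biUnion t) (f := a)
    have h2 : 0 ≤ ∑ χ ∈ t x ∩ X.biUnion t, a χ := Finset.sum_nonneg fun χ _ => ha χ
    linarith

section Select

variable {G : Type*} [AddCommGroup G] [Fintype G]

/-- Half of the mass of characters has small chords on a small set `X`. -/
lemma good_set {T : Finset (AddChar G ℂ)} {a : AddChar G ℂ → ℝ} (ha : ∀ χ, 0 ≤ a χ)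
    (hmul : ∀ (z : G) (m : ℕ), nd T a (m • z) ≤ m * nd T a z)
    (hA : 0 < ∑ χ ∈ T, a χ) (X : Finset G) (k : ℕ) (hX : X.card ≤ k) :
    ∃ E ⊆ T, (∑ χ ∈ T, a χ) / 2 ≤ ∑ χ ∈ E, a χ ∧
      ∀ χ ∈ E, ∀ x ∈ X, chord χ x ≤ 16 * k * (nd T a x / ∑ χ ∈ T, a χ) := by
  classical
  set A := ∑ χ ∈ T, a χ with hAdef
  refine ⟨T.filter fun χ => ∀ x ∈ X, chord χ x ≤ 16 * k * (nd T a x / A), Finset.filter_subset _ _,
    ?_, fun χ hχ => (Finset.mem_filter.1 hχ).2⟩
  have hsplit : (∑ χ ∈ T with ∀ x ∈ X, chord χ x ≤ 16 * k * (nd T a x / A), a χ)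
      + (∑ χ ∈ T with ¬ ∀ x ∈ X, chord χ x ≤ 16 * k * (nd T a x / A), a χ) = A := by
    rw [Finset.sum_filter_add_sum_filter_not]
  have hbad : ∑ χ ∈ T with ¬ ∀ x ∈ X, chord χ x ≤ 16 * k * (nd T a x / A), a χ ≤ A / 2 := by
    have hsub : (T.filter fun χ => ¬ ∀ x ∈ X, chord χ x ≤ 16 * k * (nd T a x / A))
        ⊆ X.biUnion fun x => T.filter fun χ => 16 * k * (nd T a x / A) < chord χ x := by
      intro χ hχ
      rw [Finset.mem_filter] at hχ
      obtain ⟨hT, hx⟩ := hχ
      push Not at hx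
      obtain ⟨x, hxX, hlt⟩ := hx
      rw [Finset.mem_biUnion]
      exact ⟨x, hxX, Finset.mem_filter.2 ⟨hT, hlt⟩⟩
    have hone : ∀ x ∈ X, ∑ χ ∈ T with 16 * k * (nd T a x / A) < chord χ x, a χ ≤ A / (2 * k) := by
      intro x hx
      have hk : (0 : ℝ) < k := by
        have : 0 < X.card := Finset.card_pos.2 ⟨x, hx⟩
        exact_mod_cast lt_of_lt_of_le this hX
      have hndx : 0 ≤ nd T a x := nd_nonneg ha x
      rcases hndx.eq_or_lt with h0 | hpos
      · rw [← h0]
        have : ∑ χ ∈ T with 16 * (k : ℝ) * (0 / A) < chord χ x, a χ = 0 := by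
          refine Finset.sum_eq_zero fun χ hχ => ?_
          rw [Finset.mem_filter] at hχ
          have hterm : a χ * (1 - (χ x).re) = 0 := by
            have hsum : ∑ χ ∈ T, a χ * (1 - (χ x).re) = 0 := h0.symm
            exact (Finset.sum_eq_zero_iff_of_nonneg (fun χ _ =>
              mul_nonneg (ha χ) (one_sub_re_nonneg χ x))).1 hsum χ hχ.1
          have hch : 0 < chord χ x := by simpa using hχ.2
          rw [one_sub_re_eq] at hterm
          rcases mul_eq_zero.1 hterm with h | h
          · exact h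
          · exfalso
            have : 0 < chord χ x ^ 2 / 2 := by positivity
            linarith
        rw [this]
        positivity
      · have hs : 0 < 16 * k * (nd T a x / A) := by positivity
        have hw := weak_type ha hmul x (16 * k * (nd T a x / A)) hs.le
        have hle : ∑ χ ∈ T with 16 * k * (nd T a x / A) < chord χ x, a χ
            ≤ ∑ χ ∈ T with 16 * k * (nd T a x / A) ≤ chord χ x, a χ := by
          refine Finset.sum_le_sum_of_subset_of_nonneg ?_ (fun χ _ _ => ha χ)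
          intro χ hχ
          rw [Finset.mem_filter] at hχ ⊢
          exact ⟨hχ.1, hχ.2.le⟩
        refine hle.trans ?_
        rw [le_div_iff₀ (by positivity)]
        have e : 16 * k * (nd T a x / A) * ∑ χ ∈ T with 16 * k * (nd T a x / A) ≤ chord χ x, a χ
            = (8 * nd T a x / A)
              * ((∑ χ ∈ T with 16 * k * (nd T a x / A) ≤ chord χ x, a χ) * (2 * k)) := by ring
        rw [e] at hw
        have hc : 0 < 8 * nd T a x / A := by positivity
        have : (8 * nd T a x / A)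
              * ((∑ χ ∈ T with 16 * k * (nd T a x / A) ≤ chord χ x, a χ) * (2 * k))
              ≤ (8 * nd T a x / A) * A := by
          refine hw.trans (le_of_eq ?_)
          field_simp
        exact le_of_mul_le_mul_left this hc
    calc ∑ χ ∈ T with ¬ ∀ x ∈ X, chord χ x ≤ 16 * k * (nd T a x / A), a χ
        ≤ ∑ χ ∈ X.biUnion fun x => T.filter fun χ => 16 * k * (nd T a x / A) < chord χ x, a χ :=
          Finset.sum_le_sum_of_subset_of_nonneg hsub (fun χ _ _ => ha χ)
      _ ≤ ∑ x ∈ X, ∑ χ ∈ T with 16 * k * (nd T a x / A) < chord χ x, a χ :=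
          sum_biUnion_le_sum _ _ _ ha
      _ ≤ ∑ x ∈ X, A / (2 * k) := Finset.sum_le_sum hone
      _ ≤ A / 2 := by
          rw [Finset.sum_const, nsmul_eq_mul]
          rcases Nat.eq_zero_or_pos X.card with h | h
          · rw [h]; simp; positivity
          · have hk : (0 : ℝ) < k := by exact_mod_cast lt_of_lt_of_le h hX
            have hXk : (X.card : ℝ) ≤ k := by exact_mod_cast hX
            rw [mul_div_assoc', div_le_div_iff₀ (by positivity) (by norm_num)]
            nlinarith
  linarith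

end Select

section Roots

variable {G : Type*} [AddCommGroup G] [Fintype G]

/-- In a group of exponent dividing `e`, a nonzero chord is at least `2 / e`. -/
lemma chord_lower (χ : AddChar G ℂ) (z : G) (e : ℕ) (he : e • z = 0) (he0 : 0 < e)
    (hne : 0 < chord χ z) : 2 / (e : ℝ) ≤ chord χ z := by
  have hζ : (χ z) ^ e = 1 := by
    rw [← AddChar.map_nsmul_eq_pow, he]; simp
  have h1 : χ z ≠ 1 := by
    intro h; rw [chord, h] at hne; simp at hne
  have hgeom : ∑ m ∈ range e, (χ z) ^ m = 0 := by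
    rw [geom_sum_eq h1, hζ]; simp
  have hpow : ∀ m : ℕ, ‖1 - (χ z) ^ m‖ ≤ m * chord χ z := by
    intro m
    induction m with
    | zero => simp
    | succ m ih =>
      have : 1 - (χ z) ^ (m + 1) = (1 - (χ z) ^ m) + (χ z) ^ m * (1 - χ z) := by ring
      rw [this]
      refine (norm_add_le _ _).trans ?_
      rw [norm_mul, norm_pow, AddChar.norm_apply, one_pow, one_mul]
      have hc : chord χ z = ‖1 - χ z‖ := rfl
      rw [hc] at ih ⊢
      push_cast
      linarith
  have hsum : (e : ℝ) ≤ ∑ m ∈ range e, (m : ℝ) * chord χ z := by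
    have : (e : ℂ) = ∑ m ∈ range e, (1 - (χ z) ^ m) := by
      rw [Finset.sum_sub_distrib, hgeom]; simp
    calc (e : ℝ) = ‖(e : ℂ)‖ := by simp
      _ = ‖∑ m ∈ range e, (1 - (χ z) ^ m)‖ := by rw [← this]
      _ ≤ ∑ m ∈ range e, ‖1 - (χ z) ^ m‖ := norm_sum_le _ _
      _ ≤ ∑ m ∈ range e, (m : ℝ) * chord χ z := Finset.sum_le_sum fun m _ => hpow m
  rw [← Finset.sum_mul] at hsum
  have hg : ∑ m ∈ range e, (m : ℝ) ≤ (e : ℝ) * e / 2 := by
    clear hsum hgeom hζ he he0
    induction e with
    | zero => simp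
    | succ n ih => rw [Finset.sum_range_succ]; push_cast; nlinarith
  have hepos : (0 : ℝ) < e := by exact_mod_cast he0
  rw [div_le_iff₀ hepos]
  have h2 : (e : ℝ) ≤ (e : ℝ) * e / 2 * chord χ z := hsum.trans (by gcongr)
  have h3 : (e : ℝ) * 2 ≤ (e : ℝ) * (chord χ z * e) := by linarith
  exact le_of_mul_le_mul_left h3 hepos

end Roots

end Vale.Agent.P318.H868
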