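import Mathlib
import Vale.Agent.P318.H868.Main

/-!
Selection of characters, and the comparison of one negative-type semimetric with character cuts.
-/

open Finset

namespace Vale.Agent.P318.H868

section SelectAll

variable {G : Type*} [AddCommGroup G] [Fintype G]

lemma select {T : Finset (AddChar G ℂ)} {a : AddChar G ℂ → ℝ} (ha : ∀ χ, 0 ≤ a χ)
    (hmul : ∀ (z : G) (m : ℕ), nd T a (m • z) ≤ m * nd T a z)
    (hA : 0 < ∑ χ ∈ T, a χ) (S : Finset G) (J : ℕ)
    (hJ : AddMonoid.exponent G ≤ 2 ^ J ∨ 16 * S.card ≤ 2 ^ J ∨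
      16 * (Nat.log 2 (Fintype.card G)) ^ 2 ≤ 2 ^ J) :
    ∃ E ⊆ T, (∑ χ ∈ T, a χ) / 2 ≤ ∑ χ ∈ E, a χ ∧
      ∀ z ∈ S, ∑ χ ∈ E, a χ * chord χ z ≤ 8 * (J + 1) * nd T a z := by
  classical
  have small : ∀ E ⊆ T, ∀ z : G, (∀ χ ∈ E, chord χ z ≤ 2 ^ J * (nd T a z / ∑ χ ∈ T, a χ)) →
      ∑ χ ∈ E, a χ * chord χ z ≤ 8 * (J + 1) * nd T a z := by
    intro E hE z hcap
    have hnd : 0 ≤ nd T a z := nd_nonneg ha z
    have h := dyadic_sum hE ha hmul z (nd T a z / ∑ χ ∈ T, a χ) (by positivity) J hcap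
    have h1 : ∑ χ ∈ E with 0 < chord χ z, a χ ≤ ∑ χ ∈ T, a χ :=
      Finset.sum_le_sum_of_subset_of_nonneg ((Finset.filter_subset _ _).trans hE)
        (fun χ _ _ => ha χ)
    have h2 : (nd T a z / ∑ χ ∈ T, a χ) * ∑ χ ∈ E with 0 < chord χ z, a χ ≤ nd T a z := by
      calc (nd T a z / ∑ χ ∈ T, a χ) * ∑ χ ∈ E with 0 < chord χ z, a χ
          ≤ (nd T a z / ∑ χ ∈ T, a χ) * ∑ χ ∈ T, a χ := by gcongr
        _ = nd T a z := by field_simp
    linarith
  rcases hJ with h | h | h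
  · -- bounded exponent
    refine ⟨T, subset_rfl, by linarith, fun z _ => ?_⟩
    have he0 : 0 < AddMonoid.exponent G :=
      Nat.pos_of_ne_zero AddMonoid.exponent_ne_zero_of_finite
    have hepos : (0 : ℝ) < AddMonoid.exponent G := by exact_mod_cast he0
    have hcap : ∀ χ ∈ T, chord χ z ≤ 2 ^ J * (2 / (AddMonoid.exponent G : ℝ)) := by
      intro χ _
      refine (chord_le_two χ z).trans ?_
      rw [mul_div_assoc', le_div_iff₀ hepos]
      have : (AddMonoid.exponent G : ℝ) ≤ 2 ^ J := by exact_mod_cast h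
      linarith
    have hd := dyadic_sum (subset_rfl : T ⊆ T) ha hmul z (2 / (AddMonoid.exponent G : ℝ))
      (by positivity) J hcap
    have hw := weak_type ha hmul z (2 / (AddMonoid.exponent G : ℝ)) (by positivity)
    have hle : ∑ χ ∈ T with 0 < chord χ z, a χ
        ≤ ∑ χ ∈ T with 2 / (AddMonoid.exponent G : ℝ) ≤ chord χ z, a χ := by
      refine Finset.sum_le_sum_of_subset_of_nonneg ?_ (fun χ _ _ => ha χ)
      intro χ hχ
      rw [Finset.mem_filter] at hχ ⊢
      exact ⟨hχ.1, chord_lower χ z _ (AddMonoid.exponent_nsmul_eq_zero z) he0 hχ.2⟩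
    have h3 : (2 / (AddMonoid.exponent G : ℝ)) * ∑ χ ∈ T with 0 < chord χ z, a χ
        ≤ 8 * nd T a z := le_trans (by gcongr) hw
    linarith
  · -- bounded degree
    obtain ⟨E, hET, hmass, hE⟩ := good_set ha hmul hA S S.card le_rfl
    refine ⟨E, hET, hmass, fun z hz => small E hET z fun χ hχ => ?_⟩
    refine (hE χ hχ z hz).trans ?_
    have hnd : 0 ≤ nd T a z := nd_nonneg ha z
    have : (16 : ℝ) * S.card ≤ 2 ^ J := by exact_mod_cast h
    gcongr
  · -- dissociated set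
    obtain ⟨X, hX, hrep⟩ := exists_dissociated (nd T a)
    set L := Nat.log 2 (Fintype.card G) with hL
    obtain ⟨E, hET, hmass, hE⟩ := good_set ha hmul hA X L hX
    refine ⟨E, hET, hmass, fun z _ => small E hET z fun χ hχ => ?_⟩
    have hnd : 0 ≤ nd T a z := nd_nonneg ha z
    obtain ⟨B, hB, C, hC, hdisj, e, h1, h2⟩ := hrep z
    have hterm : ∀ x ∈ X, nd T a x ≤ nd T a z →
        chord χ x ≤ 16 * L * (nd T a z / ∑ χ ∈ T, a χ) := by
      intro x hx hle
      refine (hE χ hχ x hx).trans ?_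
      gcongr
    have hsum : chord χ z ≤ (B.card + C.card : ℕ) * (16 * L * (nd T a z / ∑ χ ∈ T, a χ)) := by
      have hc := chord_comb χ B C
      rw [← e] at hc
      refine hc.trans ?_
      push_cast
      rw [add_mul]
      refine add_le_add ?_ ?_
      · rw [← nsmul_eq_mul]
        exact Finset.sum_le_card_nsmul _ _ _ fun x hx => hterm x (hB hx) (h1 x hx)
      · rw [← nsmul_eq_mul]
        exact Finset.sum_le_card_nsmul _ _ _ fun x hx => hterm x (hC hx) (h2 x hx)
    have hcard : B.card + C.card ≤ L := by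
      rw [← Finset.card_union_of_disjoint hdisj]
      exact (Finset.card_le_card (Finset.union_subset hB hC)).trans hX
    refine hsum.trans ?_
    have h16 : (16 : ℝ) * (L : ℝ) ^ 2 ≤ 2 ^ J := by exact_mod_cast h
    have hcard' : ((B.card + C.card : ℕ) : ℝ) ≤ L := by exact_mod_cast hcard
    calc ((B.card + C.card : ℕ) : ℝ) * (16 * L * (nd T a z / ∑ χ ∈ T, a χ))
        ≤ L * (16 * L * (nd T a z / ∑ χ ∈ T, a χ)) := by gcongr
      _ = (16 * (L : ℝ) ^ 2) * (nd T a z / ∑ χ ∈ T, a χ) := by ring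
      _ ≤ 2 ^ J * (nd T a z / ∑ χ ∈ T, a χ) := by gcongr

end SelectAll

section Key

variable {G : Type*} [AddCommGroup G] [Fintype G] [DecidableEq G]

omit [DecidableEq G] in
/-- Reindexing a sum over ordered pairs by differences. -/
lemma sum_pairs (F : G → G → ℝ) : ∑ x, ∑ y, F x y = ∑ z, ∑ u, F u (u + z) := by
  rw [Finset.sum_comm (f := fun z u => F u (u + z))]
  refine Finset.sum_congr rfl fun x _ => ?_
  exact (Equiv.sum_comp (Equiv.addLeft x) (fun y => F x y)).symm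

omit [DecidableEq G] in
lemma sum_re_char {χ : AddChar G ℂ} (h : χ ≠ 0) : ∑ x, (χ x).re = 0 := by
  rw [← Complex.re_sum, AddChar.sum_eq_zero_iff_ne_zero.2 h]; rfl

omit [DecidableEq G] in
lemma sum_one_sub_re {χ : AddChar G ℂ} (h : χ ≠ 0) :
    ∑ x, (1 - (χ x).re) = (Fintype.card G : ℝ) := by
  rw [Finset.sum_sub_distrib, sum_re_char h]; simp

omit [DecidableEq G] in
lemma sum_sq_re (χ : AddChar G ℂ) : (Fintype.card G : ℝ) / 2 ≤ ∑ x, (χ x).re ^ 2 := by
  have h1 : ∀ x, (χ x).re ^ 2 = 1 / 2 + ((χ + χ) x).re / 2 := by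
    intro x
    have h : (χ x).re * (χ x).re + (χ x).im * (χ x).im = 1 := by
      rw [← Complex.normSq_apply, Complex.normSq_eq_norm_sq, AddChar.norm_apply]; norm_num
    rw [AddChar.add_apply, Complex.mul_re]
    nlinarith
  have h2 : 0 ≤ ∑ x, ((χ + χ) x).re := by
    by_cases h : χ + χ = 0
    · rw [h]; simp
    · rw [sum_re_char h]
  have h3 : ∑ x, ((χ + χ) x).re / 2 = (∑ x, ((χ + χ) x).re) / 2 := (Finset.sum_div _ _ _).symm
  have h4 : ∑ _x : G, (1 / 2 : ℝ) = (Fintype.card G : ℝ) / 2 := by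
    rw [Finset.sum_const, Finset.card_univ, nsmul_eq_mul]; ring
  rw [Finset.sum_congr rfl fun x _ => h1 x, Finset.sum_add_distrib, h3, h4]
  linarith

omit [DecidableEq G] in
lemma sum_abs_re {χ : AddChar G ℂ} (h : χ ≠ 0) :
    (Fintype.card G : ℝ) ^ 2 / 2 ≤ ∑ x, ∑ y, |(χ x).re - (χ y).re| := by
  have habs : ∀ x, |(χ x).re| ≤ 1 := fun x =>
    (Complex.abs_re_le_norm _).trans (le_of_eq (AddChar.norm_apply χ x))
  have h1 : ∀ x y, ((χ x).re - (χ y).re) ^ 2 / 2 ≤ |(χ x).re - (χ y).re| := by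
    intro x y
    have h2 : |(χ x).re - (χ y).re| ≤ 2 := by
      refine (abs_sub _ _).trans ?_
      linarith [habs x, habs y]
    rw [← sq_abs]
    nlinarith [abs_nonneg ((χ x).re - (χ y).re)]
  have h3 : ∑ x, ∑ y, ((χ x).re - (χ y).re) ^ 2 / 2
      = (Fintype.card G : ℝ) * ∑ x, (χ x).re ^ 2 := by
    have e : ∀ x y, ((χ x).re - (χ y).re) ^ 2 / 2
        = (χ x).re ^ 2 / 2 + (χ y).re ^ 2 / 2 - (χ x).re * (χ y).re := fun x y => by ring
    simp_rw [e, Finset.sum_sub_distrib, Finset.sum_add_distrib, ← Finset.mul_sum, sum_re_char h]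
    simp only [Finset.sum_const, Finset.card_univ, nsmul_eq_mul, mul_zero, ← Finset.sum_div,
      sub_zero, ← Finset.mul_sum]
    ring
  calc (Fintype.card G : ℝ) ^ 2 / 2 = (Fintype.card G : ℝ) * ((Fintype.card G : ℝ) / 2) := by ring
    _ ≤ (Fintype.card G : ℝ) * ∑ x, (χ x).re ^ 2 := by gcongr; exact sum_sq_re χ
    _ = ∑ x, ∑ y, ((χ x).re - (χ y).re) ^ 2 / 2 := h3.symm
    _ ≤ _ := Finset.sum_le_sum fun x _ => Finset.sum_le_sum fun y _ => h1 x y

/-- The comparison of one feasible semimetric with a character cut. -/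
theorem key [Nontrivial G] {c : G → G → ℝ} (hc : IsCapacity c)
    (hinv : ∀ a x y, c (x + a) (y + a) = c x y) (J : ℕ)
    (hJ : AddMonoid.exponent G ≤ 2 ^ J ∨ 16 * (univ.filter fun z => c 0 z ≠ 0).card ≤ 2 ^ J ∨
      16 * (Nat.log 2 (Fintype.card G)) ^ 2 ≤ 2 ^ J)
    {d : G → G → ℝ} (hd : IsNegType d) (hd1 : (∑ i, ∑ j, d i j) / 2 = 1) :
    ∃ χ : AddChar G ℂ, ∃ t : ℝ, (univ.filter fun x => t < (χ x).re).Nonempty ∧
      (univ.filter fun x => t < (χ x).re) ≠ univ ∧
      cutRatio c (univ.filter fun x => t < (χ x).re)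
        ≤ 32 * (J + 1) * ((∑ i, ∑ j, c i j * d i j) / 2) := by
  obtain ⟨⟨x, hx⟩, htri⟩ := hd
  set N : ℝ := (Fintype.card G : ℝ) with hN
  have hNpos : 0 < N := by rw [hN]; exact_mod_cast Fintype.card_pos
  -- spectral weights
  set a : AddChar G ℂ → ℝ := fun χ => ∑ i, (2 / N) * ‖fc (fun u => x u i) χ‖ ^ 2 with ha_def
  have ha : ∀ χ, 0 ≤ a χ := fun χ => Finset.sum_nonneg fun i _ => by positivity
  set T : Finset (AddChar G ℂ) := univ.erase 0 with hT
  have hψ : ∀ z, ∑ u, d u (u + z) = nd T a z := by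
    intro z
    have e1 : ∀ u, d u (u + z) = ∑ i, (x u i - x (u + z) i) ^ 2 := by
      intro u
      rw [hx, EuclideanSpace.norm_eq, Real.sq_sqrt (Finset.sum_nonneg fun i _ => by positivity)]
      refine Finset.sum_congr rfl fun i _ => ?_
      simp
    rw [Finset.sum_congr rfl fun u _ => e1 u, Finset.sum_comm,
      Finset.sum_congr rfl fun i _ => sum_sq_diff (fun u => x u i) z, Finset.sum_comm]
    have e2 : nd T a z = ∑ χ : AddChar G ℂ, a χ * (1 - (χ z).re) := by
      rw [nd, hT, ← Finset.add_sum_erase univ _ (Finset.mem_univ (0 : AddChar G ℂ))]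
      simp
    rw [e2]
    refine Finset.sum_congr rfl fun χ _ => ?_
    rw [ha_def, Finset.sum_mul]
  have hd0 : ∀ u, d u u = 0 := fun u => by rw [hx]; simp
  have hmul : ∀ (z : G) (m : ℕ), nd T a (m • z) ≤ m * nd T a z := by
    intro z m
    rw [← hψ, ← hψ]
    induction m with
    | zero => simp [hd0]
    | succ m ih =>
      have h1 : ∑ u, d u (u + (m + 1) • z) ≤ ∑ u, (d u (u + m • z) + d (u + m • z) (u + m • z + z)) := by
        refine Finset.sum_le_sum fun u _ => ?_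
        have : u + (m + 1) • z = u + m • z + z := by rw [succ_nsmul]; abel
        rw [this]
        exact htri _ _ _
      have h2 : ∑ u, d (u + m • z) (u + m • z + z) = ∑ u, d u (u + z) :=
        Equiv.sum_comp (Equiv.addRight (m • z)) (fun u => d u (u + z))
      rw [Finset.sum_add_distrib, h2] at h1
      push_cast
      linarith
  -- total mass
  have hAN : (∑ χ ∈ T, a χ) * N = 2 := by
    have h1 : ∑ z, nd T a z = 2 := by
      rw [← Finset.sum_congr rfl fun z _ => hψ z, ← sum_pairs d]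
      linarith
    have h2 : ∑ z, nd T a z = ∑ χ ∈ T, a χ * N := by
      unfold nd
      rw [Finset.sum_comm]
      refine Finset.sum_congr rfl fun χ hχ => ?_
      rw [← Finset.mul_sum, sum_one_sub_re (Finset.ne_of_mem_erase hχ)]
    rw [← h1, h2, Finset.sum_mul]
  have hA : 0 < ∑ χ ∈ T, a χ := by
    by_contra h
    have : (∑ χ ∈ T, a χ) * N ≤ 0 := mul_nonpos_of_nonpos_of_nonneg (not_lt.1 h) hNpos.le
    linarith
  obtain ⟨E, hET, hmass, hE⟩ := select ha hmul hA (univ.filter fun z => c 0 z ≠ 0) J hJ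
  -- value of the relaxation
  have hcinv : ∀ u z, c u (u + z) = c 0 z := by
    intro u z
    have := hinv u 0 z
    rw [zero_add, add_comm z u] at this
    exact this
  have hval : ∑ i, ∑ j, c i j * d i j = ∑ z, c 0 z * nd T a z := by
    rw [sum_pairs]
    refine Finset.sum_congr rfl fun z _ => ?_
    rw [← hψ, Finset.mul_sum]
    exact Finset.sum_congr rfl fun u _ => by rw [hcinv]
  -- averaging over the good characters
  have havg : ∑ χ ∈ E, a χ * ∑ z, c 0 z * chord χ z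
      ≤ 8 * (J + 1) * ∑ z, c 0 z * nd T a z := by
    have e1 : ∑ χ ∈ E, a χ * ∑ z, c 0 z * chord χ z
        = ∑ z, c 0 z * ∑ χ ∈ E, a χ * chord χ z := by
      simp_rw [Finset.mul_sum]
      rw [Finset.sum_comm]
      exact Finset.sum_congr rfl fun z _ => Finset.sum_congr rfl fun χ _ => by ring
    rw [e1, Finset.mul_sum]
    refine Finset.sum_le_sum fun z _ => ?_
    by_cases hz : c 0 z = 0
    · rw [hz]; simp
    · have h := hE z (by simp [hz])
      calc c 0 z * ∑ χ ∈ E, a χ * chord χ z ≤ c 0 z * (8 * (J + 1) * nd T a z) :=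
            mul_le_mul_of_nonneg_left h (hc.nonneg 0 z)
        _ = 8 * (J + 1) * (c 0 z * nd T a z) := by ring
  obtain ⟨χ, hχE, hχ⟩ : ∃ χ ∈ E, (∑ z, c 0 z * chord χ z) / N
      ≤ 8 * (J + 1) * ∑ z, c 0 z * nd T a z := by
    by_contra hcon
    push Not at hcon
    set Q := 8 * ((J : ℝ) + 1) * ∑ z, c 0 z * nd T a z with hQ
    have hQ0 : 0 ≤ Q := by
      rw [hQ]
      refine mul_nonneg (by positivity) (Finset.sum_nonneg fun z _ => ?_)
      exact mul_nonneg (hc.nonneg 0 z) (nd_nonneg ha z)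
    have hEm : 1 / N ≤ ∑ χ ∈ E, a χ := by
      have : (∑ χ ∈ T, a χ) = 2 / N := by rw [eq_div_iff hNpos.ne']; exact hAN
      rw [this] at hmass
      calc 1 / N = 2 / N / 2 := by ring
        _ ≤ _ := hmass
    have hEpos : 0 < ∑ χ ∈ E, a χ := lt_of_lt_of_le (by positivity) hEm
    obtain ⟨χ₀, hχ₀, hχ₀pos⟩ := Finset.exists_lt_of_sum_lt (s := E) (f := fun _ => (0 : ℝ)) (g := a)
      (by simpa using hEpos)
    have hlt : ∑ χ ∈ E, a χ * (N * Q) < ∑ χ ∈ E, a χ * ∑ z, c 0 z * chord χ z := by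
      refine Finset.sum_lt_sum (fun χ hχ => ?_) ⟨χ₀, hχ₀, ?_⟩
      · refine mul_le_mul_of_nonneg_left ?_ (ha χ)
        have := hcon χ hχ
        rw [lt_div_iff₀ hNpos] at this
        linarith
      · refine mul_lt_mul_of_pos_left ?_ hχ₀pos
        have := hcon χ₀ hχ₀
        rw [lt_div_iff₀ hNpos] at this
        linarith
    rw [← Finset.sum_mul] at hlt
    have : Q ≤ (∑ χ ∈ E, a χ) * (N * Q) := by
      calc Q = 1 / N * (N * Q) := by field_simp
        _ ≤ (∑ χ ∈ E, a χ) * (N * Q) := by gcongr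
    linarith
  -- the threshold cut
  have hχ0 : χ ≠ 0 := Finset.ne_of_mem_erase (hET hχE)
  have hden := sum_abs_re hχ0
  have hne : ∃ x y, (χ x).re ≠ (χ y).re := by
    by_contra h
    push Not at h
    have : ∑ x, ∑ y, |(χ x).re - (χ y).re| = 0 :=
      Finset.sum_eq_zero fun x _ => Finset.sum_eq_zero fun y _ => by rw [h x y]; simp
    rw [this] at hden
    have : 0 < N ^ 2 / 2 := by positivity
    linarith
  obtain ⟨t, ht1, ht2, ht3⟩ := exists_threshold_cut hc (fun x => (χ x).re) hne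
  refine ⟨χ, t, ht1, ht2, ?_⟩
  have hnum : ∑ x, ∑ y, c x y * |(χ x).re - (χ y).re| ≤ N * ∑ z, c 0 z * chord χ z := by
    rw [sum_pairs, Finset.mul_sum]
    refine Finset.sum_le_sum fun z _ => ?_
    have : ∀ u, c u (u + z) * |(χ u).re - (χ (u + z)).re| ≤ c 0 z * chord χ z := by
      intro u
      rw [hcinv]
      refine mul_le_mul_of_nonneg_left ?_ (hc.nonneg 0 z)
      rw [← Complex.sub_re]
      refine (Complex.abs_re_le_norm _).trans (le_of_eq ?_)
      rw [AddChar.map_add_eq_mul]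
      have : χ u - χ u * χ z = χ u * (1 - χ z) := by ring
      rw [this, norm_mul, AddChar.norm_apply, one_mul]; rfl
    calc ∑ u, c u (u + z) * |(χ u).re - (χ (u + z)).re| ≤ ∑ _u : G, c 0 z * chord χ z :=
          Finset.sum_le_sum fun u _ => this u
      _ = N * (c 0 z * chord χ z) := by
          rw [Finset.sum_const, Finset.card_univ, nsmul_eq_mul]
  set r := cutRatio c (univ.filter fun x => t < (χ x).re) with hr
  have hr0 : 0 ≤ r := cutRatio_nonneg hc _
  rw [hval]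
  have h1 : r * (N ^ 2 / 2) ≤ N * (N * (8 * (J + 1) * ∑ z, c 0 z * nd T a z)) := by
    calc r * (N ^ 2 / 2) ≤ r * ∑ x, ∑ y, |(χ x).re - (χ y).re| := by gcongr
      _ ≤ ∑ x, ∑ y, c x y * |(χ x).re - (χ y).re| := ht3
      _ ≤ N * ∑ z, c 0 z * chord χ z := hnum
      _ ≤ N * (N * (8 * (J + 1) * ∑ z, c 0 z * nd T a z)) := by
          have : ∑ z, c 0 z * chord χ z ≤ N * (8 * (J + 1) * ∑ z, c 0 z * nd T a z) := by
            rw [div_le_iff₀ hNpos] at hχ
            linarith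
          gcongr
  have h2 : (N ^ 2 / 2) * r
      ≤ (N ^ 2 / 2) * (32 * (J + 1) * ((∑ z, c 0 z * nd T a z) / 2)) := by
    calc (N ^ 2 / 2) * r = r * (N ^ 2 / 2) := by ring
      _ ≤ _ := h1
      _ = _ := by ring
  exact le_of_mul_le_mul_left h2 (by positivity)

end Key

end Vale.Agent.P318.H868
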